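import Vale.Agent.P256.St.Class
import Vale.Agent.P256.St.Dense

open Vale.Agent.P256

/-- (1) The hyperbolicity cone of a good cubic is a spectrahedral shadow: a hyperbolic cubic which
has at most five variables, or whose Hessian has rank at most three at some double point of the
cone, or for which some double point of the cone is strict.

(2) The same holds for all polynomials of the class `Built`: the smallest class of hyperbolic
polynomials (in any number of variables and of any degree) which contains the nice cones, the
good cubics, the definite determinants, the iterated derivatives of polynomials with ordinary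
boundary and the polynomials with an identity `l p = Q R - ∑ G_i²`, and which is closed under
composition with linear maps, products, changes of the polynomial or of the direction which do
not change the cone, quadratic extensions `q(ρ(x) A(x) - B(x,x))`, and sums `p₁ + p₂` with
`D_z p₁ = D_z p₂ = q`, `q` hyperbolic and `D_z q = 0`, for a common point `z` of the two cones.

(3) Strictness of a double point is a generic condition: if `z` is a double point of the cone of a
hyperbolic cubic `p`, then there is a form `r` such that for all small `δ > 0` the cubic
`p - δ r` is hyperbolic, has the same Hessian at `z`, and `z` is a strict double point of it. -/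
theorem Vale.Agent.Results.P256.CubicsStrict.result :
    (∀ (n : ℕ) (p : MvPolynomial (Fin n) ℝ) (e : Fin n → ℝ), GoodCubic p e →
      IsSpectrahedralShadow (hypCone p e)) ∧
    (∀ (n : ℕ) (p : MvPolynomial (Fin n) ℝ) (e : Fin n → ℝ), St.Built p e →
      IsHyperbolic p e ∧ IsSpectrahedralShadow (hypCone p e)) ∧
    (∀ (n : ℕ) (p : MvPolynomial (Fin n) ℝ) (e z : Fin n → ℝ), IsHyperbolic p e →
      p.IsHomogeneous 3 → IsDouble p e z → ∃ (r : MvPolynomial (Fin n) ℝ) (δ₀ : ℝ), 0 < δ₀ ∧
        ∀ δ : ℝ, 0 < δ → δ < δ₀ → IsHyperbolic (p - MvPolynomial.C δ * r) e ∧
          (p - MvPolynomial.C δ * r).IsHomogeneous 3 ∧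
          hessMat (p - MvPolynomial.C δ * r) z = hessMat p z ∧
          StrictDouble (p - MvPolynomial.C δ * r) e z) :=
  ⟨fun _ _ _ h => (St.good_cubic h).shadow, fun _ _ _ h => ⟨h.main.1, h.main.2.shadow⟩,
    fun _ _ _ _ hp hd hz => by
      obtain ⟨r, δ₀, h0, h⟩ := St.strict_dense hp hd hz
      exact ⟨r, δ₀, h0, h⟩⟩
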