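import Vale.Agent.P256.C5.RankMain
import Vale.Agent.P256.C5.Class2

open Vale.Agent.P256

/-- (1) The hyperbolicity cone of a tame cubic is a spectrahedral shadow: a hyperbolic cubic which
has at most five variables, or whose Hessian has rank at most three at some double point of the
cone, or whose double points on the cone are all ordinary modulo the lineality space.

(2) The same holds for all polynomials of the class `Built`: the smallest class of hyperbolic
polynomials (in any number of variables and of any degree) which contains the nice cones, the
tame cubics, the definite determinants, the iterated derivatives of polynomials with ordinary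
boundary and the polynomials with an identity `l p = Q R - ∑ G_i²`, and which is closed under
composition with linear maps, products, changes of the polynomial or of the direction which do
not change the cone, and quadratic extensions `q(ρ(x) A(x) - B(x,x))`. -/
theorem Vale.Agent.Results.P256.CubicsTame.result :
    (∀ (n : ℕ) (p : MvPolynomial (Fin n) ℝ) (e : Fin n → ℝ), TameCubic p e →
      IsSpectrahedralShadow (hypCone p e)) ∧
    (∀ (n : ℕ) (p : MvPolynomial (Fin n) ℝ) (e : Fin n → ℝ), Built p e →
      IsHyperbolic p e ∧ IsSpectrahedralShadow (hypCone p e)) :=
  ⟨fun _ _ _ h => (tame_shad h).shadow, fun _ _ _ h =>
    ⟨(h.main fun _ _ _ h => tame_shad h).1, (h.main fun _ _ _ h => tame_shad h).2.shadow⟩⟩
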